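import Vale.Agent.P256.CubicLow.Main

namespace Vale.Agent.Results.P256.CubicFiveShadow

open Vale.Agent.P256

/-- Every hyperbolicity cone of a cubic in at most five variables is a spectrahedral shadow; so is
that of a cubic in any number of variables with a singular ray at which the Hessian has rank at
most three. -/
theorem result {n : ℕ} (p : MvPolynomial (Fin n) ℝ) (e : Fin n → ℝ) (hdeg : p.IsHomogeneous 3)
    (hhyp : IsHyperbolic p e)
    (h : n ≤ 5 ∨ ∃ b ∈ hypCone p e, -b ∉ hypCone p e ∧
      (∀ i, MvPolynomial.eval b (MvPolynomial.pderiv i p) = 0) ∧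
      (CubicLow.hessian p b).rank ≤ 3) :
    IsSpectrahedralShadow (hypCone p e) :=
  CubicLow.cubic_low_shadow p e hdeg hhyp h

end Vale.Agent.Results.P256.CubicFiveShadow
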