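import Vale.Agent.P256.Gen.Shadow
import Vale.Agent.P256.Gen.Reduce

namespace Vale.Agent.Results.P256.OrdinaryRayShadow

open Vale.Agent.P256

/-- Hyperbolicity cones of every degree and dimension, of polynomials that are products of factors
whose singular boundary rays are all ordinary, are spectrahedral shadows. -/
theorem result {n k : ℕ} (p : Fin k → MvPolynomial (Fin n) ℝ) (e : Fin n → ℝ) (d : Fin k → ℕ)
    (hhom : ∀ j, (p j).IsHomogeneous (d j)) (hhyp : ∀ j, IsHyperbolic (p j) e)
    (hord : ∀ j, OrdinarySingularRays (p j) e) :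
    IsSpectrahedralShadow (hypCone (∏ j, p j) e) :=
  shadow_prod Finset.univ p e d (fun j _ => hhom j) (fun j _ => hhyp j) (fun j _ => hord j)
    fun H hP hO => H.shadow_pointed hP hO

end Vale.Agent.Results.P256.OrdinaryRayShadow
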